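import Vale.Agent.P040.Mono.Stage

/-! # The pair inequality for monotone drawings (rows MZ*) -/

namespace Vale.Agent.P040.Mono

open Finset Vale.Agent.P040.All

variable {k g g' : ℕ} {h h' : ℕ → ℤ} {a c : ℕ → Bool} {Cr : ℕ → ℕ → Prop}

/-- total variation of `N_x` along the five stages -/
def tvM (k g g' : ℕ) (h h' : ℕ → ℤ) (a c : ℕ → Bool) (x : ℕ) : ℤ :=
  |(NN k (mkey k g h) x : ℤ) - NN k (sk1 k g h c) x| +
  |(NN k (sk1 k g h c) x : ℤ) - NN k (sk2 k g h h' c) x| +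
  |(NN k (sk2r k g h h' c) x : ℤ) - NN k (sk3r k g' h h' a) x| +
  |(NN k (sk3 k g' h h' a) x : ℤ) - NN k (sk4 k g' h' a) x| +
  |(NN k (sk4 k g' h' a) x : ℤ) - NN k (sk5 k g' h') x|

/-- (MZ1) `NN_rot` with `rot2`. -/
lemma NN_sk2 (H : Hgt k g h) (H' : Hgt k g' h') {x : ℕ} (hx : x < 2 * k + 1) :
    NN k (sk2r k g h h' c) x = NN k (sk2 k g h h' c) x := by
  exact (NN_rot (rot2 H H') hx).symm

/-- (MZ2) `NN_rot` with `rot3`. -/
lemma NN_sk3 (H : Hgt k g h) (H' : Hgt k g' h') {x : ℕ} (hx : x < 2 * k + 1) :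
    NN k (sk3r k g' h h' a) x = NN k (sk3 k g' h h' a) x := by
  exact (NN_rot (rot3 H H') hx).symm

/-- (MZ3) `NN_congr` with `sk5_order`, then `NN_neg` (`inj_mkey`). -/
lemma NN_sk5 (H' : Hgt k g' h') {x : ℕ} (hx : x < 2 * k + 1) :
    NN k (sk5 k g' h') x + NN k (mkey k g' h') x = 2 * k - x := by
  rw [NN_congr (sk5_order H') hx]
  exact NN_neg (inj_mkey H') hx

/-- (MZ4) `NN_ge`, `NN_le_k`, `NN_le_sub`, `inj_mkey`; unfold `xiM`, `wd`; `omega`
(copy of `All.xi_spec`). -/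
lemma xiM_spec (H : Hgt k g h) {x : ℕ} (hx : x < 2 * k + 1) :
    xiM k g h x ≤ wd k x ∧ NN k (mkey k g h) x = xiM k g h x + (k - x) := by
  have hi : Inj (2 * k + 1) (mkey k g h) := inj_mkey H
  have h1 := NN_ge hi hx
  have h2 := NN_le_k hi hx
  have h3 := NN_le_sub (k := k) (κ := mkey k g h) x
  unfold xiM wd
  omega

/-- (MZ5) `x ∈ L` (copy of `All.agree_L`): `therm_tt`; `NN (sk1) x` is extreme (`NN_extreme`,
`blk1_U`, `blk1_D`, `inj_sk1`); MZ1 - MZ4. -/
lemma magree_L (P : Pair k g g' h h' a c Cr) {x : ℕ} (hx : x < g) :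
    (((range (wd k x)).filter fun τ => PhiM k (x, τ) g h = PhiM k (x, τ) g' h').card : ℤ)
      ≤ tvM k g g' h h' a c x := by
  have hgg := P.hgg
  have hg' := P.H'.hg
  have hx2 : x < 2 * k + 1 := by omega
  have h2 := NN_sk2 (c := c) P.H P.H' hx2
  have h3 := NN_sk3 (a := a) P.H P.H' hx2
  have h5 := NN_sk5 P.H' hx2
  obtain ⟨ha, ha'⟩ := xiM_spec P.H hx2
  obtain ⟨hb, hb'⟩ := xiM_spec P.H' hx2
  have hext : NN k (sk1 k g h c) x = k - x ∨ NN k (sk1 k g h c) x = min k (2 * k - x) := by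
    apply NN_extreme (inj_sk1 P.H)
    cases hl : c x
    · right; right; left; exact blk1_D P.H hx hl
    · left; exact blk1_U P.H hx hl
  have ht := therm_tt ha hb
  have hfil : ((range (wd k x)).filter fun τ => PhiM k (x, τ) g h = PhiM k (x, τ) g' h') =
      ((range (wd k x)).filter fun τ =>
        decide (wd k x ≤ τ + xiM k g h x) = decide (wd k x ≤ τ + xiM k g' h' x)) := by
    apply filter_congr
    intro τ _
    have h1 : ¬ g ≤ x := by omega
    have h2 : ¬ g' ≤ x := by omega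
    simp only [PhiM, h1, h2, if_false]
  rw [hfil]
  unfold tvM
  have e1 := le_abs_self ((NN k (mkey k g h) x : ℤ) - NN k (sk1 k g h c) x)
  have e1' := neg_abs_le ((NN k (mkey k g h) x : ℤ) - NN k (sk1 k g h c) x)
  have e2 := le_abs_self ((NN k (sk1 k g h c) x : ℤ) - NN k (sk2 k g h h' c) x)
  have e2' := neg_abs_le ((NN k (sk1 k g h c) x : ℤ) - NN k (sk2 k g h h' c) x)
  have e3 := le_abs_self ((NN k (sk2r k g h h' c) x : ℤ) - NN k (sk3r k g' h h' a) x)
  have e3' := neg_abs_le ((NN k (sk2r k g h h' c) x : ℤ) - NN k (sk3r k g' h h' a) x)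
  have e4 := le_abs_self ((NN k (sk3 k g' h h' a) x : ℤ) - NN k (sk4 k g' h' a) x)
  have e4' := neg_abs_le ((NN k (sk3 k g' h h' a) x : ℤ) - NN k (sk4 k g' h' a) x)
  have e5 := le_abs_self ((NN k (sk4 k g' h' a) x : ℤ) - NN k (sk5 k g' h') x)
  have e5' := neg_abs_le ((NN k (sk4 k g' h' a) x : ℤ) - NN k (sk5 k g' h') x)
  generalize |(NN k (mkey k g h) x : ℤ) - NN k (sk1 k g h c) x| = A1 at *
  generalize |(NN k (sk1 k g h c) x : ℤ) - NN k (sk2 k g h h' c) x| = A2 at *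
  generalize |(NN k (sk2r k g h h' c) x : ℤ) - NN k (sk3r k g' h h' a) x| = A3 at *
  generalize |(NN k (sk3 k g' h h' a) x : ℤ) - NN k (sk4 k g' h' a) x| = A4 at *
  generalize |(NN k (sk4 k g' h' a) x : ℤ) - NN k (sk5 k g' h') x| = A5 at *
  unfold wd at *
  rcases hext with hext | hext <;> omega

/-- (MZ6) `x ∈ X` (copy of `All.agree_M`): `therm_bt`; triangle inequality; MZ1 - MZ4. -/
lemma magree_X (P : Pair k g g' h h' a c Cr) {x : ℕ} (hx : g ≤ x) (hx' : x < g') :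
    (((range (wd k x)).filter fun τ => PhiM k (x, τ) g h = PhiM k (x, τ) g' h').card : ℤ)
      ≤ tvM k g g' h h' a c x := by
  have hgg := P.hgg
  have hg' := P.H'.hg
  have hx2 : x < 2 * k + 1 := by omega
  have h2 := NN_sk2 (c := c) P.H P.H' hx2
  have h3 := NN_sk3 (a := a) P.H P.H' hx2
  have h5 := NN_sk5 P.H' hx2
  obtain ⟨ha, ha'⟩ := xiM_spec P.H hx2
  obtain ⟨hb, hb'⟩ := xiM_spec P.H' hx2
  have ht := therm_bt ha hb
  have hfil : ((range (wd k x)).filter fun τ => PhiM k (x, τ) g h = PhiM k (x, τ) g' h') =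
      ((range (wd k x)).filter fun τ =>
        decide (τ < xiM k g h x) = decide (wd k x ≤ τ + xiM k g' h' x)) := by
    apply filter_congr
    intro τ _
    simp only [PhiM, if_pos hx, if_neg (not_le.mpr hx')]
  rw [hfil]
  unfold tvM
  have e1 := le_abs_self ((NN k (mkey k g h) x : ℤ) - NN k (sk1 k g h c) x)
  have e1' := neg_abs_le ((NN k (mkey k g h) x : ℤ) - NN k (sk1 k g h c) x)
  have e2 := le_abs_self ((NN k (sk1 k g h c) x : ℤ) - NN k (sk2 k g h h' c) x)
  have e2' := neg_abs_le ((NN k (sk1 k g h c) x : ℤ) - NN k (sk2 k g h h' c) x)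
  have e3 := le_abs_self ((NN k (sk2r k g h h' c) x : ℤ) - NN k (sk3r k g' h h' a) x)
  have e3' := neg_abs_le ((NN k (sk2r k g h h' c) x : ℤ) - NN k (sk3r k g' h h' a) x)
  have e4 := le_abs_self ((NN k (sk3 k g' h h' a) x : ℤ) - NN k (sk4 k g' h' a) x)
  have e4' := neg_abs_le ((NN k (sk3 k g' h h' a) x : ℤ) - NN k (sk4 k g' h' a) x)
  have e5 := le_abs_self ((NN k (sk4 k g' h' a) x : ℤ) - NN k (sk5 k g' h') x)
  have e5' := neg_abs_le ((NN k (sk4 k g' h' a) x : ℤ) - NN k (sk5 k g' h') x)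
  generalize |(NN k (mkey k g h) x : ℤ) - NN k (sk1 k g h c) x| = A1 at *
  generalize |(NN k (sk1 k g h c) x : ℤ) - NN k (sk2 k g h h' c) x| = A2 at *
  generalize |(NN k (sk2r k g h h' c) x : ℤ) - NN k (sk3r k g' h h' a) x| = A3 at *
  generalize |(NN k (sk3 k g' h h' a) x : ℤ) - NN k (sk4 k g' h' a) x| = A4 at *
  generalize |(NN k (sk4 k g' h' a) x : ℤ) - NN k (sk5 k g' h') x| = A5 at *
  unfold wd at *
  omega

/-- (MZ7) `x ∈ R` (copy of `All.agree_R`): `therm_bb`; `NN (sk4) x` is extreme (`NN_extreme`,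
`blk4_U`, `blk4_D`, `inj_sk4`); MZ1 - MZ4. -/
lemma magree_R (P : Pair k g g' h h' a c Cr) {x : ℕ} (hx : g' ≤ x) (hx' : x < 2 * k + 1) :
    (((range (wd k x)).filter fun τ => PhiM k (x, τ) g h = PhiM k (x, τ) g' h').card : ℤ)
      ≤ tvM k g g' h h' a c x := by
  have hgg := P.hgg
  have hg' := P.H'.hg
  have hx2 : x < 2 * k + 1 := by omega
  have h2 := NN_sk2 (c := c) P.H P.H' hx2
  have h3 := NN_sk3 (a := a) P.H P.H' hx2
  have h5 := NN_sk5 P.H' hx2
  obtain ⟨ha, ha'⟩ := xiM_spec P.H hx2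
  obtain ⟨hb, hb'⟩ := xiM_spec P.H' hx2
  have hext : NN k (sk4 k g' h' a) x = k - x ∨ NN k (sk4 k g' h' a) x = min k (2 * k - x) := by
    apply NN_extreme (inj_sk4 P.H')
    cases hl : a x
    · right; right; right; exact blk4_D P.H' hx hx' hl
    · right; left; exact blk4_U P.H' hx hx' hl
  have ht := therm_bb ha hb
  have hfil : ((range (wd k x)).filter fun τ => PhiM k (x, τ) g h = PhiM k (x, τ) g' h') =
      ((range (wd k x)).filter fun τ =>
        decide (τ < xiM k g h x) = decide (τ < xiM k g' h' x)) := by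
    apply filter_congr
    intro τ _
    have h1 : g ≤ x := by omega
    simp only [PhiM, if_pos h1, if_pos hx]
  rw [hfil]
  unfold tvM
  have e1 := le_abs_self ((NN k (mkey k g h) x : ℤ) - NN k (sk1 k g h c) x)
  have e1' := neg_abs_le ((NN k (mkey k g h) x : ℤ) - NN k (sk1 k g h c) x)
  have e2 := le_abs_self ((NN k (sk1 k g h c) x : ℤ) - NN k (sk2 k g h h' c) x)
  have e2' := neg_abs_le ((NN k (sk1 k g h c) x : ℤ) - NN k (sk2 k g h h' c) x)
  have e3 := le_abs_self ((NN k (sk2r k g h h' c) x : ℤ) - NN k (sk3r k g' h h' a) x)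
  have e3' := neg_abs_le ((NN k (sk2r k g h h' c) x : ℤ) - NN k (sk3r k g' h h' a) x)
  have e4 := le_abs_self ((NN k (sk3 k g' h h' a) x : ℤ) - NN k (sk4 k g' h' a) x)
  have e4' := neg_abs_le ((NN k (sk3 k g' h h' a) x : ℤ) - NN k (sk4 k g' h' a) x)
  have e5 := le_abs_self ((NN k (sk4 k g' h' a) x : ℤ) - NN k (sk5 k g' h') x)
  have e5' := neg_abs_le ((NN k (sk4 k g' h' a) x : ℤ) - NN k (sk5 k g' h') x)
  generalize |(NN k (mkey k g h) x : ℤ) - NN k (sk1 k g h c) x| = A1 at *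
  generalize |(NN k (sk1 k g h c) x : ℤ) - NN k (sk2 k g h h' c) x| = A2 at *
  generalize |(NN k (sk2r k g h h' c) x : ℤ) - NN k (sk3r k g' h h' a) x| = A3 at *
  generalize |(NN k (sk3 k g' h h' a) x : ℤ) - NN k (sk4 k g' h' a) x| = A4 at *
  generalize |(NN k (sk4 k g' h' a) x : ℤ) - NN k (sk5 k g' h') x| = A5 at *
  unfold wd at *
  rcases hext with hext | hext <;> omega

variable [∀ p q, Decidable (Cr p q)]

/-- (MZ8) `∑_x tvM =` five `DD`s `≤` the five numbers of discordant pairs (`DD_le_disc`, `inj_*`)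
`≤` the number of crossings (`mdisc_sum_le`); copy of `All.sum_tv_le`. -/
lemma sum_tvM_le (P : Pair k g g' h h' a c Cr) :
    ∑ x ∈ range (2 * k + 1), tvM k g g' h h' a c x ≤
      ((((range (2 * k + 1)) ×ˢ (range (2 * k + 1))).filter
          fun q => q.1 ≠ q.2 ∧ Cr q.1 q.2).card : ℤ) := by
  have h01 := DD_le_disc (k := k) (inj_mkey P.H) (inj_sk1 (c := c) P.H)
  have h12 := DD_le_disc (k := k) (inj_sk1 (c := c) P.H) (inj_sk2 (c := c) P.hgg P.H P.H')
  have h23 := DD_le_disc (k := k) (inj_sk2r (c := c) P.hgg P.H P.H')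
    (inj_sk3r (a := a) P.hgg P.H P.H')
  have h34 := DD_le_disc (k := k) (inj_sk3 (a := a) P.hgg P.H P.H') (inj_sk4 (a := a) P.H')
  have h45 := DD_le_disc (k := k) (inj_sk4 (a := a) P.H') (inj_sk5 P.H')
  have hd := mdisc_sum_le P
  have hd' : ((Disc (2 * k + 1) (mkey k g h) (sk1 k g h c)).card : ℤ) +
      (Disc (2 * k + 1) (sk1 k g h c) (sk2 k g h h' c)).card +
      (Disc (2 * k + 1) (sk2r k g h h' c) (sk3r k g' h h' a)).card +
      (Disc (2 * k + 1) (sk3 k g' h h' a) (sk4 k g' h' a)).card +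
      (Disc (2 * k + 1) (sk4 k g' h' a) (sk5 k g' h')).card ≤
      ((((range (2 * k + 1)) ×ˢ (range (2 * k + 1))).filter
          fun q => q.1 ≠ q.2 ∧ Cr q.1 q.2).card : ℤ) := by exact_mod_cast hd
  have hsum : ∑ x ∈ range (2 * k + 1), tvM k g g' h h' a c x =
      DD k (mkey k g h) (sk1 k g h c) + DD k (sk1 k g h c) (sk2 k g h h' c) +
      DD k (sk2r k g h h' c) (sk3r k g' h h' a) + DD k (sk3 k g' h h' a) (sk4 k g' h' a) +
      DD k (sk4 k g' h' a) (sk5 k g' h') := by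
    simp only [tvM, DD, Finset.sum_add_distrib]
  rw [hsum]
  linarith

/-- **The pair inequality**: two blue vertices agree in at most as many features as there are
crossings between their stars. -/
theorem core (P : Pair k g g' h h' a c Cr) :
    ((II k).filter fun f => PhiM k f g h = PhiM k f g' h').card ≤
      (((range (2 * k + 1)) ×ˢ (range (2 * k + 1))).filter
          fun q => q.1 ≠ q.2 ∧ Cr q.1 q.2).card := by
  rw [card_filter_II]
  have h1 : ((∑ x ∈ range (2 * k + 1),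
      ((range (wd k x)).filter fun τ => PhiM k (x, τ) g h = PhiM k (x, τ) g' h').card : ℕ) : ℤ) ≤
      ∑ x ∈ range (2 * k + 1), tvM k g g' h h' a c x := by
    push_cast
    apply sum_le_sum
    intro x hx
    rw [mem_range] at hx
    by_cases h1 : x < g
    · exact magree_L P h1
    · by_cases h2 : x < g'
      · exact magree_X P (by omega) h2
      · exact magree_R P (by omega) hx
  have h2 := sum_tvM_le P
  exact_mod_cast h1.trans h2

end Vale.Agent.P040.Mono
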