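import Vale.Agent.P040.All.Final

/-!
# Zarankiewicz bound for x-monotone drawings: combinatorial definitions

See `notes/P040_monotone.md`.  A blue vertex `b` of an x-monotone drawing is described by its gap `g`
(number of reds to its left) and a height key `h`: on the reds `≥ g` it gives the vertical order of
the right-going edges at `b`, on the reds `< g` the vertical order of the left-going edges
(larger = higher).  Sequences of reds are given by integer keys as in `All/Defs.lean`.
-/

namespace Vale.Agent.P040.Mono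

open Finset Vale.Agent.P040.All

/-- key `v` in block number `j`, ascending -/
def bu (k : ℕ) (j v : ℤ) : ℤ := 2 * j * (2 * k + 1) + v
/-- key `v` in block number `j`, descending -/
def bd (k : ℕ) (j v : ℤ) : ℤ := 2 * j * (2 * k + 1) - v

/-- the rotation at a blue vertex (counterclockwise, starting straight down): right-going edges from
bottom to top, then left-going edges from top to bottom -/
def mkey (k g : ℕ) (h : ℕ → ℤ) (x : ℕ) : ℤ := if g ≤ x then bu k 0 (h x) else bd k 2 (h x)

/-- `S1`: right-going edges of `b` upwards, then `B1` (reds `< g` whose edge to `b'` passes above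
`b`) by descending index, then `B2` by ascending index -/
def sk1 (k g : ℕ) (h : ℕ → ℤ) (c : ℕ → Bool) (x : ℕ) : ℤ :=
  if g ≤ x then bu k 0 (h x) else if c x then bd k 2 x else bu k 3 x

/-- `S2`: right-going edges of `b` upwards, `B1` upwards, `B2` upwards -/
def sk2 (k g : ℕ) (h h' : ℕ → ℤ) (c : ℕ → Bool) (x : ℕ) : ℤ :=
  if g ≤ x then bu k 0 (h x) else if c x then bu k 2 (h' x) else bu k 3 (h' x)

/-- `S2` rotated: the vertical line just right of `b`, read upwards -/
def sk2r (k g : ℕ) (h h' : ℕ → ℤ) (c : ℕ → Bool) (x : ℕ) : ℤ :=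
  if g ≤ x then bu k 0 (h x) else if c x then bu k 2 (h' x) else bu k (-1) (h' x)

/-- `S3` rotated: the vertical line just left of `b'`, read upwards -/
def sk3r (k g' : ℕ) (h h' : ℕ → ℤ) (a : ℕ → Bool) (x : ℕ) : ℤ :=
  if x < g' then bu k 0 (h' x) else if a x then bu k 2 (h x) else bu k (-1) (h x)

/-- `S3`: left-going edges of `b'` upwards, `A1` upwards, `A2` upwards -/
def sk3 (k g' : ℕ) (h h' : ℕ → ℤ) (a : ℕ → Bool) (x : ℕ) : ℤ :=
  if x < g' then bu k 0 (h' x) else if a x then bu k 2 (h x) else bu k 3 (h x)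

/-- `S4`: left-going edges of `b'` upwards, `A1` by ascending index, `A2` by descending index -/
def sk4 (k g' : ℕ) (h' : ℕ → ℤ) (a : ℕ → Bool) (x : ℕ) : ℤ :=
  if x < g' then bu k 0 (h' x) else if a x then bu k 2 x else bd k 4 x

/-- `S5`: left-going edges of `b'` upwards, right-going edges of `b'` downwards (the reversed
rotation at `b'`) -/
def sk5 (k g' : ℕ) (h' : ℕ → ℤ) (x : ℕ) : ℤ := if x < g' then bu k 0 (h' x) else bd k 4 (h' x)

/-- `h` is a height key for a blue vertex with gap `g` -/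
structure Hgt (k g : ℕ) (h : ℕ → ℤ) : Prop where
  hg : g ≤ 2 * k + 1
  lo : ∀ x < 2 * k + 1, 0 ≤ h x
  hi : ∀ x < 2 * k + 1, h x < 2 * k + 1
  injR : ∀ x < 2 * k + 1, ∀ y < 2 * k + 1, g ≤ x → g ≤ y → h x = h y → x = y
  injL : ∀ x < g, ∀ y < g, h x = h y → x = y

/-- The combinatorial data of two blue vertices `b` (gap `g`, heights `h`) left of `b'` (gap `g'`,
heights `h'`): `a x` = the edge `b x` passes above `b'` (`x ≥ g'`), `c x` = the edge `b' x` passes
above `b` (`x < g`), and `Cr p q` = the edges `b p` and `b' q` meet.  The eight rules say that two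
edges whose vertical order differs at the two ends of their common x-range meet. -/
structure Pair (k g g' : ℕ) (h h' : ℕ → ℤ) (a c : ℕ → Bool) (Cr : ℕ → ℕ → Prop) : Prop where
  hgg : g ≤ g'
  H : Hgt k g h
  H' : Hgt k g' h'
  ha : ∀ x < 2 * k + 1, ∀ y < 2 * k + 1, g' ≤ x → g' ≤ y → a x = false → a y = true → h x < h y
  hc : ∀ x < g, ∀ y < g, c x = false → c y = true → h' x < h' y
  cLL1 : ∀ p q, p < q → q < g → ¬ (c q = true ↔ h p < h q) → Cr p q
  cLL2 : ∀ p q, q < p → p < g → ¬ (c q = true ↔ h' p < h' q) → Cr p q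
  cRR1 : ∀ p q, g' ≤ q → q < p → p < 2 * k + 1 → ¬ (a p = true ↔ h q < h p) → Cr p q
  cRR2 : ∀ p q, g' ≤ p → p < q → q < 2 * k + 1 → ¬ (a p = true ↔ h' q < h' p) → Cr p q
  cRL : ∀ p q, g' ≤ p → p < 2 * k + 1 → q < g → (c q = true ↔ a p = true) → Cr p q
  cXL : ∀ p q, g ≤ p → p < g' → q < g → (c q = true ↔ h' q < h' p) → Cr p q
  cRX : ∀ p q, g' ≤ p → p < 2 * k + 1 → g ≤ q → q < g' → ¬ (h q < h p ↔ a p = true) → Cr p q
  cXX : ∀ p q, g ≤ q → q < p → p < g' → ¬ (h q < h p ↔ h' q < h' p) → Cr p q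

/-- `ξ_x(b) = N_x(π_b) - max (k - x) 0` -/
def xiM (k g : ℕ) (h : ℕ → ℤ) (x : ℕ) : ℕ := NN k (mkey k g h) x - (k - x)

/-- the feature `(x, τ)` of a blue vertex: thermometer code of `ξ_x`, filled from the bottom if the
blue vertex is left of the red `x`, from the top otherwise -/
def PhiM (k : ℕ) (f : ℕ × ℕ) (g : ℕ) (h : ℕ → ℤ) : Bool :=
  if g ≤ f.1 then decide (f.2 < xiM k g h f.1) else decide (wd k f.1 ≤ f.2 + xiM k g h f.1)

end Vale.Agent.P040.Mono
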