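import Vale.Agent.P040.Mono.Defs

/-! # The stage sequences of the monotone chain (rows MI*, MR*, MB*)

All rows: unfold the keys (`mkey, sk1, …, bu, bd`), `split_ifs` / `cases hc : c x`, use the bounds
`Hgt.lo`, `Hgt.hi` for the heights that occur, and finish by `omega` / `nlinarith`-free linear
arithmetic (the products `2 * j * (2 * k + 1)` have numeral `j`, so `omega` works after
`push_cast`/`ring_nf`; or `generalize (2 * (k:ℤ) + 1) = N`). -/

namespace Vale.Agent.P040.Mono

open Finset Vale.Agent.P040.All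

variable {k g g' : ℕ} {h h' : ℕ → ℤ} {a c : ℕ → Bool} {Cr : ℕ → ℕ → Prop}

/-- (MI0) -/
lemma inj_mkey (H : Hgt k g h) : Inj (2 * k + 1) (mkey k g h) := by
  intro x hx y hy hxy
  have l1 := H.lo x hx
  have l2 := H.lo y hy
  have u1 := H.hi x hx
  have u2 := H.hi y hy
  simp only [mkey, bu, bd] at hxy
  split_ifs at hxy with c1 c2 c2
  · exact H.injR x hx y hy c1 c2 (by omega)
  · omega
  · omega
  · exact H.injL x (by omega) y (by omega) (by omega)

/-- (MI1) -/
lemma inj_sk1 (H : Hgt k g h) : Inj (2 * k + 1) (sk1 k g h c) := by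
  intro x hx y hy hxy
  have l1 := H.lo x hx
  have l2 := H.lo y hy
  have u1 := H.hi x hx
  have u2 := H.hi y hy
  simp only [sk1, bu, bd] at hxy
  split_ifs at hxy with c1 c2 c3 c2 c3 c4 c2 c3
  all_goals first
    | exact H.injR x hx y hy c1 c2 (by omega)
    | omega

/-- (MI2) for `x, y < g` use `H'.injL` (`g ≤ g'`). -/
lemma inj_sk2 (hgg : g ≤ g') (H : Hgt k g h) (H' : Hgt k g' h') :
    Inj (2 * k + 1) (sk2 k g h h' c) := by
  intro x hx y hy hxy
  have l1 := H.lo x hx
  have l2 := H.lo y hy
  have u1 := H.hi x hx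
  have u2 := H.hi y hy
  have l1' := H'.lo x hx
  have l2' := H'.lo y hy
  have u1' := H'.hi x hx
  have u2' := H'.hi y hy
  simp only [sk2, bu, bd] at hxy
  split_ifs at hxy
  all_goals first
    | exact H.injR x hx y hy (by assumption) (by assumption) (by omega)
    | exact H'.injL x (by omega) y (by omega) (by omega)
    | omega

/-- (MI3) -/
lemma inj_sk2r (hgg : g ≤ g') (H : Hgt k g h) (H' : Hgt k g' h') :
    Inj (2 * k + 1) (sk2r k g h h' c) := by
  intro x hx y hy hxy
  have l1 := H.lo x hx
  have l2 := H.lo y hy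
  have u1 := H.hi x hx
  have u2 := H.hi y hy
  have l1' := H'.lo x hx
  have l2' := H'.lo y hy
  have u1' := H'.hi x hx
  have u2' := H'.hi y hy
  simp only [sk2r, bu, bd] at hxy
  split_ifs at hxy
  all_goals first
    | exact H.injR x hx y hy (by assumption) (by assumption) (by omega)
    | exact H'.injL x (by omega) y (by omega) (by omega)
    | omega

/-- (MI4) for `x, y ≥ g'` use `H.injR` (`g ≤ g'`). -/
lemma inj_sk3r (hgg : g ≤ g') (H : Hgt k g h) (H' : Hgt k g' h') :
    Inj (2 * k + 1) (sk3r k g' h h' a) := by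
  intro x hx y hy hxy
  have l1 := H.lo x hx
  have l2 := H.lo y hy
  have u1 := H.hi x hx
  have u2 := H.hi y hy
  have l1' := H'.lo x hx
  have l2' := H'.lo y hy
  have u1' := H'.hi x hx
  have u2' := H'.hi y hy
  simp only [sk3r, bu, bd] at hxy
  split_ifs at hxy
  all_goals first
    | exact H.injR x hx y hy (by omega) (by omega) (by omega)
    | exact H'.injL x (by assumption) y (by assumption) (by omega)
    | omega

/-- (MI5) -/
lemma inj_sk3 (hgg : g ≤ g') (H : Hgt k g h) (H' : Hgt k g' h') :
    Inj (2 * k + 1) (sk3 k g' h h' a) := by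
  intro x hx y hy hxy
  have l1 := H.lo x hx
  have l2 := H.lo y hy
  have u1 := H.hi x hx
  have u2 := H.hi y hy
  have l1' := H'.lo x hx
  have l2' := H'.lo y hy
  have u1' := H'.hi x hx
  have u2' := H'.hi y hy
  simp only [sk3, bu, bd] at hxy
  split_ifs at hxy
  all_goals first
    | exact H.injR x hx y hy (by omega) (by omega) (by omega)
    | exact H'.injL x (by assumption) y (by assumption) (by omega)
    | omega

/-- (MI6) -/
lemma inj_sk4 (H' : Hgt k g' h') : Inj (2 * k + 1) (sk4 k g' h' a) := by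
  intro x hx y hy hxy
  have l1' := H'.lo x hx
  have l2' := H'.lo y hy
  have u1' := H'.hi x hx
  have u2' := H'.hi y hy
  simp only [sk4, bu, bd] at hxy
  split_ifs at hxy
  all_goals first
    | exact H'.injL x (by assumption) y (by assumption) (by omega)
    | omega

/-- (MI7) -/
lemma inj_sk5 (H' : Hgt k g' h') : Inj (2 * k + 1) (sk5 k g' h') := by
  intro x hx y hy hxy
  have h1' := H'.lo x hx
  have h2' := H'.hi x hx
  have h3' := H'.lo y hy
  have h4' := H'.hi y hy
  revert hxy
  unfold sk5 bu bd
  by_cases e1 : x < g' <;> by_cases e2 : y < g' <;> simp only [e1, e2, if_true, if_false]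
  · intro hh
    exact H'.injL x e1 y e2 (by omega)
  · intro hh; omega
  · intro hh; omega
  · intro hh
    exact H'.injR x hx y hy (by omega) (by omega) (by omega)

/-- (MR2) `sk2` is `sk2r` with the initial block `B2` moved to the end. -/
lemma rot2 (H : Hgt k g h) (H' : Hgt k g' h') :
    Rot (2 * k + 1) (sk2r k g h h' c) (sk2 k g h h' c) (fun x => x < g ∧ c x = false) := by
  refine ⟨?_, ?_, ?_⟩
  · intro x hx y hy hAx hAy
    have h1 := H.lo x hx; have h2 := H.hi x hx; have h3 := H'.lo x hx; have h4 := H'.hi x hx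
    have h5 := H.lo y hy; have h6 := H.hi y hy; have h7 := H'.lo y hy; have h8 := H'.hi y hy
    obtain ⟨hx1, hx2⟩ := hAx
    obtain ⟨hy1, hy2⟩ := hAy
    simp only [sk2r, sk2, bu, hx2, hy2, not_le.2 hx1, not_le.2 hy1, if_false]
    constructor <;> intro hh <;> simp at hh ⊢ <;> omega
  · intro x hx y hy hAx hAy
    have h1 := H.lo x hx; have h2 := H.hi x hx; have h3 := H'.lo x hx; have h4 := H'.hi x hx
    have h5 := H.lo y hy; have h6 := H.hi y hy; have h7 := H'.lo y hy; have h8 := H'.hi y hy
    simp only [not_and, Bool.not_eq_false] at hAx hAy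
    simp only [sk2r, sk2, bu]
    by_cases hx1 : g ≤ x <;> by_cases hy1 : g ≤ y
    · simp [hx1, hy1]
    · have := hAy (not_le.1 hy1)
      simp [hx1, hy1, this]
    · have := hAx (not_le.1 hx1)
      simp [hx1, hy1, this]
    · have := hAx (not_le.1 hx1)
      have := hAy (not_le.1 hy1)
      simp [hx1, hy1, *]
  · intro x hx y hy hAx hAy
    have h1 := H.lo x hx; have h2 := H.hi x hx; have h3 := H'.lo x hx; have h4 := H'.hi x hx
    have h5 := H.lo y hy; have h6 := H.hi y hy; have h7 := H'.lo y hy; have h8 := H'.hi y hy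
    obtain ⟨hx1, hx2⟩ := hAx
    simp only [not_and, Bool.not_eq_false] at hAy
    simp only [sk2r, sk2, bu, hx2, not_le.2 hx1, if_false]
    by_cases hy1 : g ≤ y
    · simp only [hy1, if_true]
      constructor <;> simp <;> omega
    · have := hAy (not_le.1 hy1)
      simp only [hy1, this, if_true, if_false]
      constructor <;> simp <;> omega

/-- (MR3) `sk3` is `sk3r` with the initial block `A2` moved to the end. -/
lemma rot3 (H : Hgt k g h) (H' : Hgt k g' h') :
    Rot (2 * k + 1) (sk3r k g' h h' a) (sk3 k g' h h' a) (fun x => g' ≤ x ∧ a x = false) := by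
  refine ⟨?_, ?_, ?_⟩
  · intro x hx y hy hAx hAy
    have h1 := H.lo x hx; have h2 := H.hi x hx; have h3 := H'.lo x hx; have h4 := H'.hi x hx
    have h5 := H.lo y hy; have h6 := H.hi y hy; have h7 := H'.lo y hy; have h8 := H'.hi y hy
    obtain ⟨hx1, hx2⟩ := hAx
    obtain ⟨hy1, hy2⟩ := hAy
    simp only [sk3r, sk3, bu, hx2, hy2, not_lt.2 hx1, not_lt.2 hy1, if_false]
    constructor <;> intro hh <;> simp at hh ⊢ <;> omega
  · intro x hx y hy hAx hAy
    have h1 := H.lo x hx; have h2 := H.hi x hx; have h3 := H'.lo x hx; have h4 := H'.hi x hx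
    have h5 := H.lo y hy; have h6 := H.hi y hy; have h7 := H'.lo y hy; have h8 := H'.hi y hy
    simp only [not_and, Bool.not_eq_false] at hAx hAy
    simp only [sk3r, sk3, bu]
    by_cases hx1 : x < g' <;> by_cases hy1 : y < g'
    · simp [hx1, hy1]
    · have := hAy (not_lt.1 hy1)
      simp [hx1, hy1, this]
    · have := hAx (not_lt.1 hx1)
      simp [hx1, hy1, this]
    · have := hAx (not_lt.1 hx1)
      have := hAy (not_lt.1 hy1)
      simp [hx1, hy1, *]
  · intro x hx y hy hAx hAy
    have h1 := H.lo x hx; have h2 := H.hi x hx; have h3 := H'.lo x hx; have h4 := H'.hi x hx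
    have h5 := H.lo y hy; have h6 := H.hi y hy; have h7 := H'.lo y hy; have h8 := H'.hi y hy
    obtain ⟨hx1, hx2⟩ := hAx
    simp only [not_and, Bool.not_eq_false] at hAy
    simp only [sk3r, sk3, bu, hx2, not_lt.2 hx1, if_false]
    by_cases hy1 : y < g'
    · simp only [hy1, if_true]
      constructor <;> simp <;> omega
    · have := hAy (not_lt.1 hy1)
      simp only [hy1, this, if_true, if_false]
      constructor <;> simp <;> omega

/-- (MR5) `sk5` has the same order as the reversal of the rotation at `b'`. -/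
lemma sk5_order (H' : Hgt k g' h') : ∀ x < 2 * k + 1, ∀ y < 2 * k + 1,
    (sk5 k g' h' x < sk5 k g' h' y ↔ - mkey k g' h' x < - mkey k g' h' y) := by
  intro x hx y hy
  have h1 := H'.lo x hx
  have h2 := H'.hi x hx
  have h3 := H'.lo y hy
  have h4 := H'.hi y hy
  unfold sk5 mkey bu bd
  generalize (2 * (k:ℤ) + 1) = N at *
  split_ifs <;> constructor <;> intro hh <;> omega

/-- (MB1) `x ∈ B1`: in `sk1` the smaller elements come right after `x`. -/
lemma blk1_U (H : Hgt k g h) {x : ℕ} (hx : x < g) (hc : c x = true) :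
    Blk (2 * k + 1) (sk1 k g h c) x (fun y => y < x) := by
  have hg := H.hg
  refine ⟨by omega, lt_irrefl x, ?_, ?_⟩
  · intro y hy hyx
    have e1 : ¬ g ≤ x := by omega
    have e2 : ¬ g ≤ y := by omega
    simp only [sk1, bu, bd, e1, e2, hc, if_false, if_true]
    cases hcy : c y <;> simp <;> omega
  · intro y hy hyx z hz hzx hlt
    have hz0 := H.lo z hz
    have hz1 := H.hi z hz
    have e1 : ¬ g ≤ x := by omega
    have e2 : ¬ g ≤ y := by omega
    simp only [sk1, bu, bd, e1, e2, hc, if_false, if_true] at hlt ⊢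
    by_cases hzg : g ≤ z
    · simp only [hzg, if_true] at hlt ⊢
      omega
    · simp only [hzg, if_false] at hlt ⊢
      cases hcz : c z <;> cases hcy : c y <;> simp [hcz] at hlt ⊢ <;> omega

/-- (MB2) `x ∈ B2`: in `sk1` the smaller elements come right before `x`. -/
lemma blk1_D (H : Hgt k g h) {x : ℕ} (hx : x < g) (hc : c x = false) :
    Blk (2 * k + 1) (fun y => - sk1 k g h c y) x (fun y => y < x) := by
  have hg := H.hg
  refine ⟨by omega, lt_irrefl x, ?_, ?_⟩
  · intro y hy hyx
    have e1 : ¬ g ≤ x := by omega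
    have e2 : ¬ g ≤ y := by omega
    simp only [sk1, bu, bd, e1, e2, hc, if_false]
    cases hcy : c y <;> simp <;> omega
  · intro y hy hyx z hz hzx hlt
    have hz0 := H.lo z hz
    have hz1 := H.hi z hz
    have e1 : ¬ g ≤ x := by omega
    have e2 : ¬ g ≤ y := by omega
    simp only [sk1, bu, bd, e1, e2, hc, if_false] at hlt ⊢
    by_cases hzg : g ≤ z
    · simp only [hzg, if_true] at hlt ⊢
      cases hcy : c y <;> simp <;> omega
    · simp only [hzg, if_false] at hlt ⊢
      cases hcz : c z <;> cases hcy : c y <;> simp [hcz] at hlt ⊢ <;> omega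

/-- (MB3) `x ∈ A1`: in `sk4` the larger elements come right after `x`. -/
lemma blk4_U (H' : Hgt k g' h') {x : ℕ} (hx : g' ≤ x) (hx' : x < 2 * k + 1) (ha : a x = true) :
    Blk (2 * k + 1) (sk4 k g' h' a) x (fun y => x < y) := by
  have hxg : ¬ x < g' := by omega
  refine ⟨hx', lt_irrefl x, ?_, ?_⟩
  · intro y hy hxy
    have hyg : ¬ y < g' := by omega
    simp only [sk4, bu, bd, hxg, hyg, if_false, ha, if_true]
    cases a y <;> simp <;> omega
  · intro y hy hxy z hz hzx hxz
    have hyg : ¬ y < g' := by omega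
    have hzx' : z ≤ x := not_lt.mp hzx
    have l0 := H'.lo z hz
    have l1 := H'.hi z hz
    revert hxz
    simp only [sk4, bu, bd, hxg, hyg, if_false, ha, if_true]
    by_cases hzg : z < g'
    · simp only [hzg, if_true]
      intro hxz
      omega
    · simp only [hzg, if_false]
      cases a y <;> cases a z <;> simp <;> omega

/-- (MB4) `x ∈ A2`: in `sk4` the larger elements come right before `x`. -/
lemma blk4_D (H' : Hgt k g' h') {x : ℕ} (hx : g' ≤ x) (hx' : x < 2 * k + 1) (ha : a x = false) :
    Blk (2 * k + 1) (fun y => - sk4 k g' h' a y) x (fun y => x < y) := by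
  have hxg : ¬ x < g' := by omega
  refine ⟨hx', lt_irrefl x, ?_, ?_⟩
  · intro y hy hxy
    have hyg : ¬ y < g' := by omega
    simp only [sk4, bu, bd, hxg, hyg, if_false, ha]
    cases a y <;> simp <;> omega
  · intro y hy hxy z hz hzx hxz
    have hyg : ¬ y < g' := by omega
    have hzx' : z ≤ x := not_lt.mp hzx
    have l0 := H'.lo z hz
    have l1 := H'.hi z hz
    revert hxz
    simp only [sk4, bu, bd, hxg, hyg, if_false, ha]
    by_cases hzg : z < g'
    · simp only [hzg, if_true]
      cases a y <;> simp <;> omega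
    · simp only [hzg, if_false]
      cases a y <;> cases a z <;> simp <;> omega

end Vale.Agent.P040.Mono
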