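import Vale.Agent.P040.Mono.Keys

/-! # Discordant pairs of the five stages are crossings (rows MS*)

Pattern for MS1 - MS6 (compare `All/Stage.lean`, `stage_LL` …): unfold `dsc5, dsc, cri` and the keys,
`cases hcx : c x <;> cases hcy : c y <;> cases hax : a x <;> cases hay : a y`, simplify the `if`s with
the zone hypotheses; get the bounds `P.H.lo/hi`, `P.H'.lo/hi` at `x`, `y`; decide `h x < h y`,
`h' x < h' y` by `by_cases`/`lt_trichotomy` (equality is excluded by `injL`/`injR`); whenever a stage
is discordant, produce `Cr x y` or `Cr y x` from the rule named in the row. -/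

namespace Vale.Agent.P040.Mono

open Finset Vale.Agent.P040.All

variable {k g g' : ℕ} {h h' : ℕ → ℤ} {a c : ℕ → Bool} {Cr : ℕ → ℕ → Prop}

/-- indicator of a crossing -/
def cri (Cr : ℕ → ℕ → Prop) [∀ p q, Decidable (Cr p q)] (p q : ℕ) : ℕ := if Cr p q then 1 else 0

/-- the five stages together, at the pair `x < y` -/
def dsc5 (k g g' : ℕ) (h h' : ℕ → ℤ) (a c : ℕ → Bool) (x y : ℕ) : ℕ :=
  dsc (mkey k g h) (sk1 k g h c) x y + dsc (sk1 k g h c) (sk2 k g h h' c) x y +
    dsc (sk2r k g h h' c) (sk3r k g' h h' a) x y + dsc (sk3 k g' h h' a) (sk4 k g' h' a) x y +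
    dsc (sk4 k g' h' a) (sk5 k g' h') x y

variable [∀ p q, Decidable (Cr p q)]

private lemma dsc_le_cri78 {κ κ' : ℕ → ℤ} {x y p q : ℕ}
    (H : ¬ Cr p q → (κ x < κ y ↔ κ' x < κ' y)) : dsc κ κ' x y ≤ cri Cr p q := by
  unfold dsc cri
  by_cases hC : Cr p q
  · rw [if_pos hC]
    split_ifs <;> omega
  · rw [if_pos (H hC)]
    omega

private lemma dsc_zero78 {κ κ' : ℕ → ℤ} {x y : ℕ}
    (H : κ x < κ y ↔ κ' x < κ' y) : dsc κ κ' x y = 0 := by
  unfold dsc
  rw [if_pos H]

/-- (MS1) both in `L`: stage 1 discordant gives `Cr x y` (`cLL1 x y`), stage 2 discordant gives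
`Cr y x` (`cLL2 y x`), stage 3 is concordant by `hc`, stages 4, 5 have equal keys. -/
lemma mstage_LL (P : Pair k g g' h h' a c Cr) {x y : ℕ} (hxy : x < y) (hy : y < g) :
    dsc5 k g g' h h' a c x y ≤ cri Cr x y + cri Cr y x := by
  have hgg := P.hgg
  have hg := P.H.hg
  have hx : x < g := by omega
  have hxn : x < 2 * k + 1 := by omega
  have hyn : y < 2 * k + 1 := by omega
  have x1 : ¬ g ≤ x := by omega
  have y1 : ¬ g ≤ y := by omega
  have x2 : x < g' := by omega
  have y2 : y < g' := by omega
  have l1 := P.H.lo x hxn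
  have l2 := P.H.lo y hyn
  have l3 := P.H.hi x hxn
  have l4 := P.H.hi y hyn
  have l5 := P.H'.lo x hxn
  have l6 := P.H'.lo y hyn
  have l7 := P.H'.hi x hxn
  have l8 := P.H'.hi y hyn
  have n1 : h x ≠ h y := fun e => by
    have := P.H.injL x hx y hy e
    omega
  have n2 : h' x ≠ h' y := fun e => by
    have := P.H'.injL x x2 y y2 e
    omega
  have d1 : dsc (mkey k g h) (sk1 k g h c) x y ≤ cri Cr x y := by
    apply dsc_le_cri78
    intro hC
    have e := not_not.1 (mt (P.cLL1 x y hxy hy) hC)
    simp only [mkey, sk1, bu, bd, if_neg x1, if_neg y1]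
    cases hcx : c x <;> cases hcy : c y <;> simp only [hcy, Bool.false_eq_true, false_iff, true_iff, not_lt] at e <;>
      simp only [Bool.false_eq_true, if_false, if_true] <;> constructor <;> intro _ <;> omega
  have d2 : dsc (sk1 k g h c) (sk2 k g h h' c) x y ≤ cri Cr y x := by
    apply dsc_le_cri78
    intro hC
    have e := not_not.1 (mt (P.cLL2 y x hxy hy) hC)
    simp only [sk1, sk2, bu, bd, if_neg x1, if_neg y1]
    cases hcx : c x <;> cases hcy : c y <;> simp only [hcx, Bool.false_eq_true, false_iff, true_iff, not_lt] at e <;>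
      simp only [Bool.false_eq_true, if_false, if_true] <;> constructor <;> intro _ <;> omega
  have d3 : dsc (sk2r k g h h' c) (sk3r k g' h h' a) x y = 0 := by
    apply dsc_zero78
    simp only [sk2r, sk3r, bu, bd, if_neg x1, if_neg y1, if_pos x2, if_pos y2]
    cases hcx : c x <;> cases hcy : c y
    · simp only [Bool.false_eq_true, if_false]
      constructor <;> intro _ <;> omega
    · have := P.hc x hx y hy hcx hcy
      simp only [Bool.false_eq_true, if_false, if_true]
      constructor <;> intro _ <;> omega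
    · have := P.hc y hy x hx hcy hcx
      simp only [Bool.false_eq_true, if_false, if_true]
      constructor <;> intro _ <;> omega
    · simp only [if_true]
      constructor <;> intro _ <;> omega
  have d4 : dsc (sk3 k g' h h' a) (sk4 k g' h' a) x y = 0 := by
    apply dsc_zero78
    simp only [sk3, sk4, if_pos x2, if_pos y2]
  have d5 : dsc (sk4 k g' h' a) (sk5 k g' h') x y = 0 := by
    apply dsc_zero78
    simp only [sk4, sk5, if_pos x2, if_pos y2]
  unfold dsc5
  omega

/-- (MS2) `x ∈ L`, `y ∈ X`: only stage 3 can be discordant, then `Cr y x` by `cXL y x`. -/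
lemma mstage_LX (P : Pair k g g' h h' a c Cr) {x y : ℕ} (hx : x < g) (hy : g ≤ y) (hy' : y < g') :
    dsc5 k g g' h h' a c x y ≤ cri Cr x y + cri Cr y x := by
  have hg' := P.H'.hg
  have hxn : x < 2 * k + 1 := by omega
  have hyn : y < 2 * k + 1 := by omega
  have b1 := P.H.lo x hxn
  have b2 := P.H.hi x hxn
  have b3 := P.H.lo y hyn
  have b4 := P.H.hi y hyn
  have b5 := P.H'.lo x hxn
  have b6 := P.H'.hi x hxn
  have b7 := P.H'.lo y hyn
  have b8 := P.H'.hi y hyn
  have h1 : ¬ g ≤ x := by omega
  have h2 : x < g' := by omega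
  have key := P.cXL y x hy hy' hx
  unfold dsc5 dsc cri mkey sk1 sk2 sk2r sk3r sk3 sk4 sk5 bu bd
  simp only [h1, h2, hy, hy', if_true, if_false]
  by_cases hC : Cr y x
  · simp only [hC, if_true]
    cases hcx : c x <;> simp only [if_true, if_false, Bool.false_eq_true] <;> split_ifs <;> omega
  · have hk : ¬ (c x = true ↔ h' x < h' y) := fun e => hC (key e)
    cases hcx : c x <;> simp only [hcx, Bool.false_eq_true, false_iff, true_iff, not_not] at hk <;>
      simp only [if_true, if_false, Bool.false_eq_true] <;> split_ifs <;> omega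

/-- (MS3) `x ∈ L`, `y ∈ R`: only stage 3 can be discordant, then `Cr y x` by `cRL y x`. -/
lemma mstage_LR (P : Pair k g g' h h' a c Cr) {x y : ℕ} (hx : x < g) (hy : g' ≤ y)
    (hn : y < 2 * k + 1) :
    dsc5 k g g' h h' a c x y ≤ cri Cr x y + cri Cr y x := by
  have hgg := P.hgg
  have hg := P.H.hg
  have hxn : x < 2 * k + 1 := by omega
  have x1 : ¬ g ≤ x := by omega
  have y1 : g ≤ y := by omega
  have x2 : x < g' := by omega
  have y2 : ¬ y < g' := by omega
  have l1 := P.H.lo x hxn
  have l2 := P.H.lo y hn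
  have l3 := P.H.hi x hxn
  have l4 := P.H.hi y hn
  have l5 := P.H'.lo x hxn
  have l6 := P.H'.lo y hn
  have l7 := P.H'.hi x hxn
  have l8 := P.H'.hi y hn
  have d1 : dsc (mkey k g h) (sk1 k g h c) x y = 0 := by
    apply dsc_zero78
    simp only [mkey, sk1, bu, bd, if_neg x1, if_pos y1]
    cases hcx : c x <;> simp only [Bool.false_eq_true, if_false, if_true] <;>
      constructor <;> intro _ <;> omega
  have d2 : dsc (sk1 k g h c) (sk2 k g h h' c) x y = 0 := by
    apply dsc_zero78
    simp only [sk1, sk2, bu, bd, if_neg x1, if_pos y1]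
    cases hcx : c x <;> simp only [Bool.false_eq_true, if_false, if_true] <;>
      constructor <;> intro _ <;> omega
  have d3 : dsc (sk2r k g h h' c) (sk3r k g' h h' a) x y ≤ cri Cr y x := by
    apply dsc_le_cri78
    intro hC
    have e := mt (P.cRL y x hy hn hx) hC
    simp only [sk2r, sk3r, bu, bd, if_neg x1, if_pos y1, if_pos x2, if_neg y2]
    cases hcx : c x <;> cases hay : a y <;> simp only [hcx, hay, Bool.false_eq_true, iff_self, not_true_eq_false, iff_false, false_iff, not_false_eq_true] at e <;>
      simp only [Bool.false_eq_true, if_false, if_true] <;> constructor <;> intro _ <;> omega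
  have d4 : dsc (sk3 k g' h h' a) (sk4 k g' h' a) x y = 0 := by
    apply dsc_zero78
    simp only [sk3, sk4, bu, bd, if_pos x2, if_neg y2]
    cases hay : a y <;> simp only [Bool.false_eq_true, if_false, if_true] <;>
      constructor <;> intro _ <;> omega
  have d5 : dsc (sk4 k g' h' a) (sk5 k g' h') x y = 0 := by
    apply dsc_zero78
    simp only [sk4, sk5, bu, bd, if_pos x2, if_neg y2]
    cases hay : a y <;> simp only [Bool.false_eq_true, if_false, if_true] <;>
      constructor <;> intro _ <;> omega
  unfold dsc5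
  omega

/-- (MS4) both in `X`: only stage 3 can be discordant, then `Cr y x` by `cXX y x`. -/
lemma mstage_XX (P : Pair k g g' h h' a c Cr) {x y : ℕ} (hx : g ≤ x) (hxy : x < y) (hy : y < g') :
    dsc5 k g g' h h' a c x y ≤ cri Cr x y + cri Cr y x := by
  have hg' := P.H'.hg
  have hxn : x < 2 * k + 1 := by omega
  have hyn : y < 2 * k + 1 := by omega
  have h2 : x < g' := by omega
  have h3 : g ≤ y := by omega
  have key := P.cXX y x hx hxy hy
  unfold dsc5 dsc cri mkey sk1 sk2 sk2r sk3r sk3 sk4 sk5 bu bd
  simp only [hx, h2, h3, hy, if_true, if_false]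
  by_cases hC : Cr y x
  · simp only [hC, if_true]
    split_ifs <;> omega
  · have hk : (h x < h y ↔ h' x < h' y) := by
      by_contra e
      exact hC (key e)
    split_ifs <;> omega

/-- (MS5) `x ∈ X`, `y ∈ R`: only stage 3 can be discordant, then `Cr y x` by `cRX y x`. -/
lemma mstage_XR (P : Pair k g g' h h' a c Cr) {x y : ℕ} (hx : g ≤ x) (hx' : x < g') (hy : g' ≤ y)
    (hn : y < 2 * k + 1) :
    dsc5 k g g' h h' a c x y ≤ cri Cr x y + cri Cr y x := by
  have hgg := P.hgg
  have hxn : x < 2 * k + 1 := by omega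
  have b1 := P.H.lo x hxn
  have b2 := P.H.hi x hxn
  have b3 := P.H.lo y hn
  have b4 := P.H.hi y hn
  have b5 := P.H'.lo x hxn
  have b6 := P.H'.hi x hxn
  have b7 := P.H'.lo y hn
  have b8 := P.H'.hi y hn
  have e2 : g ≤ y := by omega
  have e3 : ¬ y < g' := by omega
  have s1 : dsc (mkey k g h) (sk1 k g h c) x y = 0 := by
    unfold dsc mkey sk1
    simp [hx, e2]
  have s2 : dsc (sk1 k g h c) (sk2 k g h h' c) x y = 0 := by
    unfold dsc sk1 sk2
    simp [hx, e2]
  have s4 : dsc (sk3 k g' h h' a) (sk4 k g' h' a) x y = 0 := by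
    unfold dsc sk3 sk4 bu bd
    simp only [hx', e3, if_true, if_false]
    rw [if_pos]
    cases a y <;> simp <;> constructor <;> intro _ <;> omega
  have s5 : dsc (sk4 k g' h' a) (sk5 k g' h') x y = 0 := by
    unfold dsc sk4 sk5 bu bd
    simp only [hx', e3, if_true, if_false]
    rw [if_pos]
    cases a y <;> simp <;> constructor <;> intro _ <;> omega
  have s3 : dsc (sk2r k g h h' c) (sk3r k g' h h' a) x y ≤ cri Cr y x := by
    by_cases hC : Cr y x
    · have : cri Cr y x = 1 := by unfold cri; simp [hC]
      rw [this]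
      unfold dsc
      split_ifs <;> omega
    · have hr : (h x < h y ↔ a y = true) := by
        by_contra hcon
        exact hC (P.cRX y x hy hn hx hx' hcon)
      have : dsc (sk2r k g h h' c) (sk3r k g' h h' a) x y = 0 := by
        unfold dsc sk2r sk3r bu
        simp only [hx, e2, hx', e3, if_true, if_false]
        rw [if_pos]
        cases hay : a y
        · rw [hay] at hr
          simp only [Bool.false_eq_true, iff_false, not_lt] at hr
          simp only [Bool.false_eq_true, if_false]
          constructor <;> intro _ <;> omega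
        · rw [hay] at hr
          simp only [iff_true] at hr
          simp only [if_true]
          constructor <;> intro _ <;> omega
      omega
  unfold dsc5
  omega

/-- (MS6) both in `R`: stages 1, 2 have equal keys, stage 3 is concordant by `ha`, stage 4
discordant gives `Cr y x` (`cRR1 y x`), stage 5 discordant gives `Cr x y` (`cRR2 x y`). -/
lemma mstage_RR (P : Pair k g g' h h' a c Cr) {x y : ℕ} (hx : g' ≤ x) (hxy : x < y)
    (hn : y < 2 * k + 1) :
    dsc5 k g g' h h' a c x y ≤ cri Cr x y + cri Cr y x := by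
  have hgg := P.hgg
  have hxn : x < 2 * k + 1 := by omega
  have hy : g' ≤ y := by omega
  have x1 : g ≤ x := by omega
  have y1 : g ≤ y := by omega
  have x2 : ¬ x < g' := by omega
  have y2 : ¬ y < g' := by omega
  have l1 := P.H.lo x hxn
  have l2 := P.H.lo y hn
  have l3 := P.H.hi x hxn
  have l4 := P.H.hi y hn
  have l5 := P.H'.lo x hxn
  have l6 := P.H'.lo y hn
  have l7 := P.H'.hi x hxn
  have l8 := P.H'.hi y hn
  have n1 : h x ≠ h y := fun e => by
    have := P.H.injR x hxn y hn x1 y1 e
    omega
  have n2 : h' x ≠ h' y := fun e => by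
    have := P.H'.injR x hxn y hn hx hy e
    omega
  have d1 : dsc (mkey k g h) (sk1 k g h c) x y = 0 := by
    apply dsc_zero78
    simp only [mkey, sk1, if_pos x1, if_pos y1]
  have d2 : dsc (sk1 k g h c) (sk2 k g h h' c) x y = 0 := by
    apply dsc_zero78
    simp only [sk1, sk2, if_pos x1, if_pos y1]
  have d3 : dsc (sk2r k g h h' c) (sk3r k g' h h' a) x y = 0 := by
    apply dsc_zero78
    simp only [sk2r, sk3r, bu, bd, if_pos x1, if_pos y1, if_neg x2, if_neg y2]
    cases hax : a x <;> cases hay : a y
    · simp only [Bool.false_eq_true, if_false]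
      constructor <;> intro _ <;> omega
    · have := P.ha x hxn y hn hx hy hax hay
      simp only [Bool.false_eq_true, if_false, if_true]
      constructor <;> intro _ <;> omega
    · have := P.ha y hn x hxn hy hx hay hax
      simp only [Bool.false_eq_true, if_false, if_true]
      constructor <;> intro _ <;> omega
    · simp only [if_true]
      constructor <;> intro _ <;> omega
  have d4 : dsc (sk3 k g' h h' a) (sk4 k g' h' a) x y ≤ cri Cr y x := by
    apply dsc_le_cri78
    intro hC
    have e := not_not.1 (mt (P.cRR1 y x hx hxy hn) hC)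
    simp only [sk3, sk4, bu, bd, if_neg x2, if_neg y2]
    cases hax : a x <;> cases hay : a y
    · simp only [hay, Bool.false_eq_true, false_iff, not_lt] at e
      simp only [Bool.false_eq_true, if_false]
      constructor <;> intro _ <;> omega
    · have := P.ha x hxn y hn hx hy hax hay
      simp only [Bool.false_eq_true, if_false, if_true]
      constructor <;> intro _ <;> omega
    · have := P.ha y hn x hxn hy hx hay hax
      simp only [Bool.false_eq_true, if_false, if_true]
      constructor <;> intro _ <;> omega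
    · simp only [hay, true_iff] at e
      simp only [if_true]
      constructor <;> intro _ <;> omega
  have d5 : dsc (sk4 k g' h' a) (sk5 k g' h') x y ≤ cri Cr x y := by
    apply dsc_le_cri78
    intro hC
    have e := not_not.1 (mt (P.cRR2 x y hx hxy hn) hC)
    simp only [sk4, sk5, bu, bd, if_neg x2, if_neg y2]
    cases hax : a x <;> cases hay : a y <;> simp only [hax, Bool.false_eq_true, false_iff, true_iff, not_lt] at e <;>
      simp only [Bool.false_eq_true, if_false, if_true] <;> constructor <;> intro _ <;> omega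
  unfold dsc5
  omega

/-- (MS7) from MS1 - MS6 -/
lemma mstage_pt (P : Pair k g g' h h' a c Cr) {x y : ℕ} (hxy : x < y) (hn : y < 2 * k + 1) :
    dsc5 k g g' h h' a c x y ≤ cri Cr x y + cri Cr y x := by
  have hgg := P.hgg
  by_cases hx : x < g
  · by_cases hy : y < g
    · exact mstage_LL P hxy hy
    · by_cases hy' : y < g'
      · exact mstage_LX P hx (by omega) hy'
      · exact mstage_LR P hx (by omega) hn
  · by_cases hx' : x < g'
    · by_cases hy' : y < g'
      · exact mstage_XX P (by omega) hxy hy'
      · exact mstage_XR P (by omega) hx' (by omega) hn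
    · exact mstage_RR P (by omega) hxy hn

/-- (MS8) split the off-diagonal part of the square into `q.1 < q.2` and `q.2 < q.1` (image of the
first under the swap); compare `All.crN_ge`. -/
lemma cr_ge (m : ℕ) :
    ∑ q ∈ ((range m) ×ˢ (range m)).filter (fun q => q.1 < q.2), (cri Cr q.1 q.2 + cri Cr q.2 q.1)
      ≤ (((range m) ×ˢ (range m)).filter fun q => q.1 ≠ q.2 ∧ Cr q.1 q.2).card := by
  have h0 : (((range m) ×ˢ (range m)).filter fun q => q.1 ≠ q.2 ∧ Cr q.1 q.2).card =
      ∑ q ∈ ((range m) ×ˢ (range m)).filter (fun q => q.1 ≠ q.2), cri Cr q.1 q.2 := by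
    rw [← filter_filter, card_filter]
    rfl
  have h1 : ∑ q ∈ ((range m) ×ˢ (range m)).filter (fun q => q.1 < q.2), cri Cr q.2 q.1 =
      ∑ q ∈ ((range m) ×ˢ (range m)).filter (fun q => q.2 < q.1), cri Cr q.1 q.2 := by
    refine sum_bij (fun q _ => (q.2, q.1)) ?_ ?_ ?_ ?_
    · intro q hq
      simp only [mem_filter, mem_product, mem_range] at hq ⊢
      exact ⟨⟨hq.1.2, hq.1.1⟩, hq.2⟩
    · intro a _ b _ h
      simp only [Prod.mk.injEq] at h
      exact Prod.ext h.2 h.1
    · intro b hb
      simp only [mem_filter, mem_product, mem_range] at hb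
      refine ⟨(b.2, b.1), ?_, rfl⟩
      simp only [mem_filter, mem_product, mem_range]
      exact ⟨⟨hb.1.2, hb.1.1⟩, hb.2⟩
    · intro q _
      rfl
  rw [sum_add_distrib, h1, h0, ← sum_union]
  · refine sum_le_sum_of_subset ?_
    intro q hq
    simp only [mem_union, mem_filter] at hq ⊢
    rcases hq with hq | hq
    · exact ⟨hq.1, by omega⟩
    · exact ⟨hq.1, by omega⟩
  · rw [disjoint_left]
    intro q h2 h3
    simp only [mem_filter] at h2 h3
    omega

/-- (MS9) from MS7, MS8 and `All.card_disc_eq` (`sum_add_distrib`, `sum_le_sum`); compare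
`All.disc_sum_le`. -/
lemma mdisc_sum_le (P : Pair k g g' h h' a c Cr) :
    (Disc (2 * k + 1) (mkey k g h) (sk1 k g h c)).card +
      (Disc (2 * k + 1) (sk1 k g h c) (sk2 k g h h' c)).card +
      (Disc (2 * k + 1) (sk2r k g h h' c) (sk3r k g' h h' a)).card +
      (Disc (2 * k + 1) (sk3 k g' h h' a) (sk4 k g' h' a)).card +
      (Disc (2 * k + 1) (sk4 k g' h' a) (sk5 k g' h')).card
      ≤ (((range (2 * k + 1)) ×ˢ (range (2 * k + 1))).filter
          fun q => q.1 ≠ q.2 ∧ Cr q.1 q.2).card := by
  refine le_trans ?_ (cr_ge (Cr := Cr) (2 * k + 1))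
  rw [card_disc_eq, card_disc_eq, card_disc_eq, card_disc_eq, card_disc_eq, ← sum_add_distrib,
    ← sum_add_distrib, ← sum_add_distrib, ← sum_add_distrib]
  refine sum_le_sum fun q hq => ?_
  rw [mem_filter, mem_product, mem_range, mem_range] at hq
  exact mstage_pt P hq.2 hq.1.2

end Vale.Agent.P040.Mono
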