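import Vale.Agent.P040.Mono.Defs

/-!
# One star of a monotone drawing (rows MV*, MT*)

Everything is indexed by natural numbers (`x < n`), no `Fin`.
-/

namespace Vale.Agent.P040.Mono

open Finset

/-- (MV1) intermediate value theorem (`intermediate_value_Icc` / `IsPreconnected.intermediate_value`
for `f1 - f2`, or `isPreconnected_Icc.intermediate_value₂`). -/
lemma meet_of_le_of_ge {f1 f2 : ℝ → ℝ} {lo hi : ℝ} (hle : lo ≤ hi)
    (c1 : ContinuousOn f1 (Set.Icc lo hi)) (c2 : ContinuousOn f2 (Set.Icc lo hi))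
    (h1 : f1 lo ≤ f2 lo) (h2 : f2 hi ≤ f1 hi) : ∃ t ∈ Set.Icc lo hi, f1 t = f2 t := by
  exact isPreconnected_Icc.intermediate_value₂ (Set.left_mem_Icc.mpr hle)
    (Set.right_mem_Icc.mpr hle) c1 c2 h1 h2

/-- (MV2) from MV1 (twice, the second time with `f1`, `f2` exchanged). -/
lemma meet_of_ne {f1 f2 : ℝ → ℝ} {lo hi : ℝ} (hle : lo ≤ hi)
    (c1 : ContinuousOn f1 (Set.Icc lo hi)) (c2 : ContinuousOn f2 (Set.Icc lo hi))
    (h : ¬ (f1 lo < f2 lo ↔ f1 hi < f2 hi)) : ∃ t ∈ Set.Icc lo hi, f1 t = f2 t := by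
  by_cases h1 : f1 lo < f2 lo
  · have h2 : ¬ f1 hi < f2 hi := fun h2 => h ⟨fun _ => h2, fun _ => h1⟩
    exact meet_of_le_of_ge hle c1 c2 h1.le (not_lt.mp h2)
  · have h2 : f1 hi < f2 hi := by
      by_contra h2
      exact h ⟨fun h3 => absurd h3 h1, fun h3 => absurd h3 h2⟩
    obtain ⟨t, ht, he⟩ := meet_of_le_of_ge hle c2 c1 (not_lt.mp h1) h2.le
    exact ⟨t, ht, he.symm⟩

/-- The star of one blue vertex `(bx, by_)` with gap `g` in a monotone drawing: the reds are the
points `(X x, Y x)`, `x < n`, from left to right; `α x` is the edge to the red `x`. -/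
structure Star (n g : ℕ) (X Y : ℕ → ℝ) (bx by_ : ℝ) (α : ℕ → ℝ → ℝ) : Prop where
  hX : ∀ x y, x < y → y < n → X x < X y
  hg : g ≤ n
  left : ∀ x, x < g → X x < bx
  right : ∀ x, g ≤ x → x < n → bx < X x
  cont : ∀ x < n, ContinuousOn (α x) (Set.uIcc (X x) bx)
  endR : ∀ x < n, α x (X x) = Y x
  endB : ∀ x < n, α x bx = by_
  avoid : ∀ x < n, ∀ y < n, y ≠ x → X y ∈ Set.uIcc (X x) bx → α x (X y) ≠ Y y
  star : ∀ x < n, ∀ y < n, x ≠ y → ∀ t ∈ Set.uIcc (X x) bx ∩ Set.uIcc (X y) bx, t ≠ bx →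
    α x t ≠ α y t

/-- the abscissa at which the heights of the edges on the side of `x` are compared: the red nearest
to the blue vertex on that side -/
def evx (g : ℕ) (X : ℕ → ℝ) (x : ℕ) : ℝ := if g ≤ x then X g else X (g - 1)

open Classical in
/-- the height of the edge to `x`: the number of edges on the same side that are below it -/
noncomputable def hgt (n g : ℕ) (X : ℕ → ℝ) (α : ℕ → ℝ → ℝ) (x : ℕ) : ℤ :=
  (((range n).filter fun y => (g ≤ y ↔ g ≤ x) ∧ α y (evx g X x) < α x (evx g X x)).card : ℤ)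

variable {n g : ℕ} {X Y : ℕ → ℝ} {bx by_ : ℝ} {α : ℕ → ℝ → ℝ}

private lemma sign_R_aux78 (S : Star n g X Y bx by_ α) {x y : ℕ} (hx : x < n) (hy : y < n)
    (hxy : x ≠ y) {s t : ℝ} (hst : s ≤ t) (hs : bx < s) (htx : t ≤ X x) (hty : t ≤ X y) :
    (α x s < α y s ↔ α x t < α y t) := by
  by_contra hcon
  have sub : ∀ z, t ≤ X z → Set.Icc s t ⊆ Set.uIcc (X z) bx := by
    intro z hz u hu
    rw [Set.uIcc_of_ge (by linarith)]
    exact ⟨by linarith [hu.1], by linarith [hu.2]⟩
  obtain ⟨u, hu, he⟩ := meet_of_ne hst ((S.cont x hx).mono (sub x htx))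
    ((S.cont y hy).mono (sub y hty)) hcon
  exact S.star x hx y hy hxy u ⟨sub x htx hu, sub y hty hu⟩ (by linarith [hu.1]) he

/-- (MT1) two right-going edges keep their vertical order.  WLOG `s ≤ t` (`le_total`, the statement is
symmetric); otherwise MV2 on `[s,t]` (`ContinuousOn.mono`: `Icc s t ⊆ uIcc (X x) bx` since
`bx < s`, `t ≤ X x`; `Set.uIcc_of_ge`/`Set.mem_uIcc`) gives a common point, contradicting `star`. -/
lemma Star.sign_R (S : Star n g X Y bx by_ α) {x y : ℕ} (hx : x < n) (hy : y < n) (hxy : x ≠ y)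
    {s t : ℝ} (hs : bx < s) (hsx : s ≤ X x) (hsy : s ≤ X y) (ht : bx < t) (htx : t ≤ X x)
    (hty : t ≤ X y) : (α x s < α y s ↔ α x t < α y t) := by
  rcases le_total s t with h | h
  · exact sign_R_aux78 S hx hy hxy h hs htx hty
  · exact (sign_R_aux78 S hx hy hxy h ht hsx hsy).symm

private lemma sign_L_aux78 (S : Star n g X Y bx by_ α) {x y : ℕ} (hx : x < n) (hy : y < n)
    (hxy : x ≠ y) {s t : ℝ} (hst : s ≤ t) (hsx : X x ≤ s) (hsy : X y ≤ s) (ht : t < bx) :
    (α x s < α y s ↔ α x t < α y t) := by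
  by_contra hcon
  have sub : ∀ z, X z ≤ s → Set.Icc s t ⊆ Set.uIcc (X z) bx := by
    intro z hz u hu
    rw [Set.uIcc_of_le (by linarith)]
    exact ⟨by linarith [hu.1], by linarith [hu.2]⟩
  obtain ⟨u, hu, he⟩ := meet_of_ne hst ((S.cont x hx).mono (sub x hsx))
    ((S.cont y hy).mono (sub y hsy)) hcon
  exact S.star x hx y hy hxy u ⟨sub x hsx hu, sub y hsy hu⟩ (by linarith [hu.2]) he

/-- (MT2) two left-going edges keep their vertical order (mirror image of MT1). -/
lemma Star.sign_L (S : Star n g X Y bx by_ α) {x y : ℕ} (hx : x < n) (hy : y < n) (hxy : x ≠ y)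
    {s t : ℝ} (hs : s < bx) (hsx : X x ≤ s) (hsy : X y ≤ s) (ht : t < bx) (htx : X x ≤ t)
    (hty : X y ≤ t) : (α x s < α y s ↔ α x t < α y t) := by
  rcases le_total s t with h | h
  · exact sign_L_aux78 S hx hy hxy h hsx hsy ht
  · exact (sign_L_aux78 S hx hy hxy h htx hty hs).symm

/-- (MT3) ranks compare like the real heights.  `evx g X x = evx g X y`.  If `α x e < α y e` the
filter of `x` is contained in the filter of `y`, which moreover contains `x` (`card_lt_card`); if
`α y e ≤ α x e` the filter of `y` is contained in that of `x` (`card_le_card`). -/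
lemma hgt_lt_iff {x y : ℕ} (hx : x < n) (hside : g ≤ x ↔ g ≤ y) :
    (hgt n g X α x < hgt n g X α y ↔ α x (evx g X x) < α y (evx g X x)) := by
  classical
  have he : evx g X y = evx g X x := by
    unfold evx
    by_cases h : g ≤ x
    · rw [if_pos h, if_pos (hside.1 h)]
    · rw [if_neg h, if_neg (fun h' => h (hside.2 h'))]
  unfold hgt
  rw [he]
  set e := evx g X x with hedef
  constructor
  · intro h
    by_contra hcon
    push Not at hcon
    have hsub : ((range n).filter fun z => (g ≤ z ↔ g ≤ y) ∧ α z e < α y e) ⊆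
        ((range n).filter fun z => (g ≤ z ↔ g ≤ x) ∧ α z e < α x e) := by
      intro z hz
      rw [mem_filter] at hz ⊢
      exact ⟨hz.1, hz.2.1.trans hside.symm, lt_of_lt_of_le hz.2.2 hcon⟩
    have := card_le_card hsub
    have h' : ((range n).filter fun z => (g ≤ z ↔ g ≤ x) ∧ α z e < α x e).card <
        ((range n).filter fun z => (g ≤ z ↔ g ≤ y) ∧ α z e < α y e).card := by exact_mod_cast h
    omega
  · intro h
    have hss : ((range n).filter fun z => (g ≤ z ↔ g ≤ x) ∧ α z e < α x e) ⊂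
        ((range n).filter fun z => (g ≤ z ↔ g ≤ y) ∧ α z e < α y e) := by
      rw [ssubset_iff_of_subset]
      · refine ⟨x, ?_, ?_⟩
        · rw [mem_filter]
          exact ⟨mem_range.2 hx, hside, h⟩
        · rw [mem_filter]
          intro hz
          exact lt_irrefl _ hz.2.2
      · intro z hz
        rw [mem_filter] at hz ⊢
        exact ⟨hz.1, hz.2.1.trans hside, lt_trans hz.2.2 h⟩
    exact_mod_cast card_lt_card hss

/-- (MT4) for right-going edges the rank order is the vertical order at every common abscissa.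
MT3 and MT1 with `s = X g` (`bx < X g ≤ X x` by `right`, `hX`). -/
lemma Star.hgt_R (S : Star n g X Y bx by_ α) {x y : ℕ} (hgx : g ≤ x) (hx : x < n) (hgy : g ≤ y)
    (hy : y < n) (hxy : x ≠ y) {t : ℝ} (ht : bx < t) (htx : t ≤ X x) (hty : t ≤ X y) :
    (hgt n g X α x < hgt n g X α y ↔ α x t < α y t) := by
  have hgn : g < n := by omega
  have hb : bx < X g := S.right g le_rfl hgn
  have mono : ∀ z, g ≤ z → z < n → X g ≤ X z := by
    intro z hz hzn
    rcases Nat.eq_or_lt_of_le hz with h | h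
    · rw [h]
    · exact (S.hX g z h hzn).le
  rw [hgt_lt_iff hx ⟨fun _ => hgy, fun _ => hgx⟩]
  have he : evx g X x = X g := by
    unfold evx
    rw [if_pos hgx]
  rw [he]
  exact S.sign_R hx hy hxy hb (mono x hgx hx) (mono y hgy hy) ht htx hty

/-- (MT5) the same for left-going edges.  MT3 and MT2 with `s = X (g - 1)`. -/
lemma Star.hgt_L (S : Star n g X Y bx by_ α) {x y : ℕ} (hx : x < g) (hy : y < g) (hxy : x ≠ y)
    {t : ℝ} (ht : t < bx) (htx : X x ≤ t) (hty : X y ≤ t) :
    (hgt n g X α x < hgt n g X α y ↔ α x t < α y t) := by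
  have hgn := S.hg
  have hxn : x < n := by omega
  have hyn : y < n := by omega
  have hside : g ≤ x ↔ g ≤ y := by omega
  rw [hgt_lt_iff hxn hside]
  have he : evx g X x = X (g - 1) := by
    unfold evx
    rw [if_neg (by omega)]
  rw [he]
  have hmono : ∀ z, z < g → X z ≤ X (g - 1) := by
    intro z hz
    rcases Nat.lt_or_ge z (g - 1) with h | h
    · exact (S.hX z (g - 1) h (by omega)).le
    · have : z = g - 1 := by omega
      rw [this]
  exact S.sign_L hxn hyn hxy (S.left (g - 1) (by omega)) (hmono x hx) (hmono y hy) ht htx hty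

/-- (MT6) bounds: the filter is contained in `(range n).erase x`. -/
lemma hgt_bounds {x : ℕ} (hx : x < n) : 0 ≤ hgt n g X α x ∧ hgt n g X α x < n := by
  classical
  refine ⟨by unfold hgt; positivity, ?_⟩
  unfold hgt
  have hsub : ((range n).filter fun y => (g ≤ y ↔ g ≤ x) ∧ α y (evx g X x) < α x (evx g X x)) ⊆
      (range n).erase x := by
    intro y hy
    rw [mem_filter] at hy
    rw [mem_erase]
    refine ⟨?_, hy.1⟩
    rintro rfl
    exact lt_irrefl _ hy.2.2
  have hc := card_le_card hsub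
  rw [card_erase_of_mem (mem_range.mpr hx), card_range] at hc
  have : ((range n).filter fun y => (g ≤ y ↔ g ≤ x) ∧
      α y (evx g X x) < α x (evx g X x)).card < n := by omega
  exact_mod_cast this

/-- (MT7) `lo`, `hi` from MT6; `injR`: if `x ≠ y` then `α x (X g) ≠ α y (X g)` by `star`, so one of the
two ranks is smaller by MT4 (`t = X g`); `injL` likewise with MT5 (`t = X (g - 1)`). -/
lemma Star.isHgt {k : ℕ} (S : Star (2 * k + 1) g X Y bx by_ α) :
    Hgt k g (hgt (2 * k + 1) g X α) := by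
  refine ⟨S.hg, fun x hx => (hgt_bounds hx).1, fun x hx => ?_, ?_, ?_⟩
  · have := (hgt_bounds (g := g) (X := X) (α := α) hx).2
    exact_mod_cast this
  · intro x hx y hy hgx hgy he
    by_contra hxy
    have hgn : g < 2 * k + 1 := by omega
    have hb : bx < X g := S.right g le_rfl hgn
    have mono : ∀ z, g ≤ z → z < 2 * k + 1 → X g ≤ X z := by
      intro z hz hzn
      rcases Nat.eq_or_lt_of_le hz with h | h
      · rw [h]
      · exact (S.hX g z h hzn).le
    have mem : ∀ z, g ≤ z → z < 2 * k + 1 → X g ∈ Set.uIcc (X z) bx := by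
      intro z hz hzn
      rw [Set.uIcc_of_ge (by linarith [mono z hz hzn])]
      exact ⟨hb.le, mono z hz hzn⟩
    have hne := S.star x hx y hy hxy (X g) ⟨mem x hgx hx, mem y hgy hy⟩ hb.ne'
    rcases lt_or_gt_of_ne hne with h | h
    · have := (S.hgt_R hgx hx hgy hy hxy hb (mono x hgx hx) (mono y hgy hy)).2 h
      omega
    · have := (S.hgt_R hgy hy hgx hx (Ne.symm hxy) hb (mono y hgy hy) (mono x hgx hx)).2 h
      omega
  · intro x hx y hy he
    by_contra hxy
    have hg := S.hg
    have hg1 : g - 1 < g := by omega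
    have hb : X (g - 1) < bx := S.left (g - 1) hg1
    have mono : ∀ z, z < g → X z ≤ X (g - 1) := by
      intro z hz
      rcases Nat.eq_or_lt_of_le (Nat.le_sub_one_of_lt hz) with h | h
      · rw [h]
      · exact (S.hX z (g - 1) h (by omega)).le
    have mem : ∀ z, z < g → X (g - 1) ∈ Set.uIcc (X z) bx := by
      intro z hz
      rw [Set.uIcc_of_le (by linarith [mono z hz])]
      exact ⟨mono z hz, hb.le⟩
    have hne := S.star x (by omega) y (by omega) hxy (X (g - 1)) ⟨mem x hx, mem y hy⟩ hb.ne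
    rcases lt_or_gt_of_ne hne with h | h
    · have := (S.hgt_L hx hy hxy hb (mono x hx) (mono y hy)).2 h
      omega
    · have := (S.hgt_L hy hx (Ne.symm hxy) hb (mono y hy) (mono x hx)).2 h
      omega

end Vale.Agent.P040.Mono
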